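import Vale.Agent.P216.H893D.Lev
import Vale.Agent.P216.H894.FamE2
import Vale.Agent.P216.D239.GlueE
import Vale.Agent.P216.H126T.X

/-!
# P216-T, row L, part (L2): the stable classes of the free loops, one slot per degree

`n = 3`, base degrees `0, 3`, fibre degrees the even numbers: every degree other than `1` has
exactly one slot, degree `1` has none. Every field, the characteristic `2` included.
-/

set_option linter.all false

open Set BoundedContinuousFunction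

namespace Vale.Agent.P216.H313T

open Vale.Agent.P216.AS Vale.Agent.P216.H901 Vale.Agent.P216.PS Vale.Agent.P216.MV337
open Vale.Agent.P216.B64 Vale.Agent.P216.H754B
open Vale.Agent.P216.Sl (cls exists_cls cls_eq_zero cls_add cls_smul CocL ExL Nrm)
open Vale.Agent.P216.H894 (BsO FsO wO)
open Vale.Agent.P216.H934D (BaseK)
open Vale.Agent.P216.E2L (BaseH Fib)
open Vale.Agent.P216.H774D (pwr pwr_mem_P pwr_apply)
open Vale.Agent.P216.H893D (OmegaPwrE)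

variable {k : Type} [Field k] {M : Type} [MetricSpace M] {x₀ : M}

section fib

variable {Bs Fs : ℕ → Prop} {w : ℕ → k} {c : ℝ} {θ : ℝ → (ℝ →ᵇ M) → (ℝ →ᵇ M)}
  (h : Fib (fun w : ℝ →ᵇ M => w 0) univ (fun t => FL M t) (fun t => P x₀ x₀ t) x₀ θ c k Fs w)
  (b : BaseH k (univ : Set M) Bs)

include h b

/-- **No slot.** -/
theorem fam_zero {n : ℕ} (hn : ∀ p q, Bs p → Fs q → p + q ≠ n) (o : (XP k M n).Fam) (t : ℝ)
    (ht : 0 < t) : o.z t ht = 0 := by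
  refine o.eq_zero_of (fun t ht => ?_) t ht
  obtain ⟨T, hT, h1⟩ := h.l1 b (n := n) (fun p q h1 h2 => hn p q h2.1 h2.2 h1) t ht
  refine ⟨T, hT, fun x => ?_⟩
  obtain ⟨f, hf, hN, rfl⟩ := exists_cls (a := a0 _) (χ := c0 k) (X := FL M T) (n := n) x
  have h2 := h1 f hf
  rw [preimage_univ, inter_univ] at h2
  exact (cls_eq_zero (h := hf.mono (FL_mono hT))).2 h2

/-- **One slot.** -/
theorem fam_dep {p q : ℕ} (hp : Bs p) (hq : Fs q)
    (hu : ∀ p' q', Bs p' → Fs q' → p' + q' = p + q → p' = p ∧ q' = q)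
    (o o' : (XP k M (p + q)).Fam) : ∃ a b : k, (a ≠ 0 ∨ b ≠ 0) ∧
      ∀ t (ht : 0 < t), a • o.z t ht + b • o'.z t ht = 0 := by
  refine PM.Fam.dep_of (fun t ht => ?_) o o'
  obtain ⟨T, hT, h1⟩ := h.l2 b hp hq (fun p' q' h1 h2 h3 => hu p' q' h2 h3 h1) t ht
  refine ⟨T, hT, fun x y => ?_⟩
  obtain ⟨f, hf, hN, rfl⟩ := exists_cls (a := a0 _) (χ := c0 k) (X := FL M T) (n := p + q) x
  obtain ⟨g, hg, hN', rfl⟩ := exists_cls (a := a0 _) (χ := c0 k) (X := FL M T) (n := p + q) y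
  obtain ⟨a, b, hab, h2⟩ := h1 f g hf hg
  rw [preimage_univ, inter_univ] at h2
  refine ⟨a, b, by tauto, ?_⟩
  have hf' := hf.mono (FL_mono hT)
  have hg' := hg.mono (FL_mono hT)
  have h3 : a • cls (a0 _) (c0 k) f hf' + b • cls (a0 _) (c0 k) g hg' = 0 := by
    rw [cls_smul, cls_smul, cls_add, cls_eq_zero]
    exact h2
  exact h3

end fib

section three

variable {w : ℕ → k} {c : ℝ} {θ : ℝ → (ℝ →ᵇ M) → (ℝ →ᵇ M)}

theorem fsO3 {q : ℕ} : FsO 3 q ↔ ∃ j, q = j * 2 := Iff.rfl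

theorem slot_uniq {p q p' q' : ℕ} (hp : BsO 3 p) (hq : FsO 3 q) (hp' : BsO 3 p') (hq' : FsO 3 q')
    (e : p' + q' = p + q) : p' = p ∧ q' = q := by
  obtain ⟨j, hj⟩ := fsO3.1 hq
  obtain ⟨j', hj'⟩ := fsO3.1 hq'
  obtain h1 | h1 := hp <;> obtain h2 | h2 := hp' <;> omega

theorem slot_ex {n : ℕ} (hn : n ≠ 1) : ∃ p q, BsO 3 p ∧ FsO 3 q ∧ p + q = n := by
  rcases Nat.even_or_odd' n with ⟨j, hj | hj⟩
  · exact ⟨0, j * 2, Or.inl rfl, ⟨j, rfl⟩, by omega⟩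
  · exact ⟨3, (j - 1) * 2, Or.inr rfl, ⟨j - 1, rfl⟩, by omega⟩

theorem slot_one {p q : ℕ} (hp : BsO 3 p) (hq : FsO 3 q) : p + q ≠ 1 := by
  obtain ⟨j, hj⟩ := fsO3.1 hq
  obtain h1 | h1 := hp <;> omega

/-- **Degree `1`.** -/
theorem fam_one
    (h : Fib (fun w : ℝ →ᵇ M => w 0) univ (fun t => FL M t) (fun t => P x₀ x₀ t) x₀ θ c k (FsO 3) w)
    (b : BaseH k (univ : Set M) (BsO 3)) (o : (XP k M 1).Fam) (t : ℝ) (ht : 0 < t) :
    o.z t ht = 0 :=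
  fam_zero h b (fun p q hp hq => slot_one hp hq) o t ht

/-- **All degrees.** -/
theorem fam_line
    (h : Fib (fun w : ℝ →ᵇ M => w 0) univ (fun t => FL M t) (fun t => P x₀ x₀ t) x₀ θ c k (FsO 3) w)
    (b : BaseH k (univ : Set M) (BsO 3)) (n : ℕ) (o o' : (XP k M n).Fam) :
    ∃ a b : k, (a ≠ 0 ∨ b ≠ 0) ∧ ∀ t (ht : 0 < t), a • o.z t ht + b • o'.z t ht = 0 := by
  by_cases hn : n = 1
  · subst hn
    exact ⟨1, 0, Or.inl one_ne_zero, fun t ht => by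
      rw [fam_one h b o t ht, fam_one h b o' t ht, smul_zero, smul_zero, add_zero]⟩
  · obtain ⟨p, q, hp, hq, rfl⟩ := slot_ex hn
    exact fam_dep h b hp hq (fun p' q' hp' hq' e => slot_uniq hp hq hp' hq' e) o o'

/-- **`StabO`** from the fibre step, the base and the classes. -/
theorem stabO_of_fib
    (h : Fib (fun w : ℝ →ᵇ M => w 0) univ (fun t => FL M t) (fun t => P x₀ x₀ t) x₀ θ c k (FsO 3) w)
    (b : BaseH k (univ : Set M) (BsO 3))
    (ne : ∀ n, n ≠ 1 → ∃ (o : (XP k M n).Fam) (t : ℝ) (ht : 0 < t), o.z t ht ≠ 0) :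
    H126T.X.StabO (fun n => XP k M n) :=
  ⟨fam_line h b, fam_one h b, ne⟩

end three

section omega

variable [CompactSpace M] {B ρ : ℝ} {m : ℕ}

/-- The first power of a closed Moore path. -/
theorem pwr_one_eqOn {t : ℝ} (ht : 0 < t) : EqOn (pwr t 1) (id : (ℝ →ᵇ M) → (ℝ →ᵇ M))
    (P x₀ x₀ t) := by
  have h1 := H774D.PwP.eqOn (M := M) (m := 1) le_rfl ht (H774D.pwP_pwr 1 ht.le)
    (g := id) (fun w hw => ⟨by rw [Nat.cast_one, one_mul]; exact hw, fun j hj u hu => by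
      obtain rfl : j = 0 := by omega
      rw [Nat.cast_zero, zero_mul, zero_add]
      rfl⟩)
  exact h1.mono P_subset_FL

/-- The weights of the first power. -/
theorem pwrE_one (O : OmegaOut M m x₀ B k) : OmegaPwrE O 1 := by
  intro j t ht h
  have key : ∀ (u : ℝ) (e : u = t) (h : UMap (P x₀ x₀ t) (P x₀ x₀ u) (pwr t 1)),
      hpull k h (j * m) (O.om j u) = O.om j t := by
    rintro u rfl h
    have hid : UMap (P x₀ x₀ u) (P x₀ x₀ u) (id : (ℝ →ᵇ M) → (ℝ →ᵇ M)) :=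
      ⟨fun _ hw => hw, fun e => e.elim, fun ε hε => ⟨ε, hε, fun _ _ _ _ h => h⟩⟩
    rw [hpull_congr h hid (pwr_one_eqOn ht), hpull_id hid Subset.rfl]
    exact O.res_om j u u le_rfl
  rw [key _ (by rw [Nat.cast_one, one_mul]) h, Nat.cast_one, one_pow, one_smul]

variable [SimplyConnectedSpace M]

/-- **The fibre step for the free loops**, every field, no operator. -/
theorem fib_one {n : ℕ} (hn : 2 ≤ n) (hρ : 0 < ρ) (hU : LS.UniqSeg M ρ)
    (O : OmegaOut M (n - 1) x₀ B k) (hB : 0 ≤ B) :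
    Fib (fun w : ℝ →ᵇ M => w 0) univ (fun t => FL M t) (fun t => P x₀ x₀ t) x₀
      (fun s => pwr s 1) ((1 : ℕ) : ℝ) k (FsO n) (wO ((1 : ℕ) : k) n) :=
  H893D.fibFL_pw hρ hU le_rfl (H893D.fsO_zero n) (H893D.wO_zero _ _)
    (H893D.omL_pwO O hB le_rfl hn (pwrE_one O))

/-- **(L2).** -/
theorem line_three (hρ : 0 < ρ) (hU : LS.UniqSeg M ρ) (O : OmegaOut M 2 x₀ B k) (hB : 0 ≤ B)
    (K : BaseK k M 3 1) (n : ℕ) (o o' : (XP k M n).Fam) :
    ∃ a b : k, (a ≠ 0 ∨ b ≠ 0) ∧ ∀ t (ht : 0 < t), a • o.z t ht + b • o'.z t ht = 0 :=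
  fam_line (fib_one (n := 3) (by norm_num) hρ hU O hB) (D239.baseH_O K) n o o'

/-- **(L2), degree `1`.** -/
theorem one_three (hρ : 0 < ρ) (hU : LS.UniqSeg M ρ) (O : OmegaOut M 2 x₀ B k) (hB : 0 ≤ B)
    (K : BaseK k M 3 1) (o : (XP k M 1).Fam) (t : ℝ) (ht : 0 < t) : o.z t ht = 0 :=
  fam_one (fib_one (n := 3) (by norm_num) hρ hU O hB) (D239.baseH_O K) o t ht

/-- **`StabO`**, every field. -/
theorem stabO_three (hρ : 0 < ρ) (hU : LS.UniqSeg M ρ) (O : OmegaOut M 2 x₀ B k) (hB : 0 ≤ B)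
    (K : BaseK k M 3 1)
    (ne : ∀ n, n ≠ 1 → ∃ (o : (XP k M n).Fam) (t : ℝ) (ht : 0 < t), o.z t ht ≠ 0) :
    H126T.X.StabO (fun n => XP k M n) :=
  ⟨line_three hρ hU O hB K, one_three hρ hU O hB K, ne⟩

end omega

end Vale.Agent.P216.H313T
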